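import Mathlib

/-! Tensor lemma for submodular functions (P038, helper149). -/

namespace Vale.Agent.P038.H149

open Finset

section
variable {V2 : Type*} [Fintype V2] [DecidableEq V2]

/-- minimum of `γ` over the interval `[L, R]` of sets -/
noncomputable def mn (γ : Finset V2 → ℤ) (L R : Finset V2) : ℤ :=
  sInf (γ '' {K | L ⊆ K ∧ K ⊆ R})

lemma mn_bdd (γ : Finset V2 → ℤ) (L R : Finset V2) :
    BddBelow (γ '' {K | L ⊆ K ∧ K ⊆ R}) :=
  (Set.toFinite _).bddBelow

lemma mn_le {γ : Finset V2 → ℤ} {L R K : Finset V2} (h1 : L ⊆ K) (h2 : K ⊆ R) :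
    mn γ L R ≤ γ K :=
  csInf_le (mn_bdd γ L R) ⟨K, ⟨h1, h2⟩, rfl⟩

lemma mn_spec {γ : Finset V2 → ℤ} {L R : Finset V2} (h : L ⊆ R) :
    ∃ K, L ⊆ K ∧ K ⊆ R ∧ γ K = mn γ L R := by
  have := Int.csInf_mem (s := γ '' {K | L ⊆ K ∧ K ⊆ R}) ⟨γ R, R, ⟨h, Subset.rfl⟩, rfl⟩
    (mn_bdd γ L R)
  obtain ⟨K, ⟨h1, h2⟩, h3⟩ := this
  exact ⟨K, h1, h2, h3⟩

lemma le_mn {γ : Finset V2 → ℤ} {L R : Finset V2} (h : L ⊆ R) {t : ℤ}
    (ht : ∀ K, L ⊆ K → K ⊆ R → t ≤ γ K) : t ≤ mn γ L R := by
  obtain ⟨K, h1, h2, h3⟩ := mn_spec (γ := γ) h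
  rw [← h3]; exact ht K h1 h2

lemma mn_self {γ : Finset V2 → ℤ} {R : Finset V2} : mn γ R R = γ R := by
  obtain ⟨K, h1, h2, h3⟩ := mn_spec (γ := γ) (Subset.refl R)
  rw [← h3, Subset.antisymm h2 h1]

lemma mn_mono {γ : Finset V2 → ℤ} {L L' R : Finset V2} (h : L ⊆ L') (h' : L' ⊆ R) :
    mn γ L R ≤ mn γ L' R :=
  le_mn h' fun K h1 h2 => mn_le (h.trans h1) h2

end

/-- TENSOR LEMMA. -/
theorem tensor {V1 V2 I : Type*} [Fintype V1] [DecidableEq V1] [Fintype V2] [DecidableEq V2]
    [Fintype I] [DecidableEq I]
    (γ : Finset V2 → ℤ) (hγ : ∀ K L, γ (K ∪ L) + γ (K ∩ L) ≤ γ K + γ L)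
    (N : I → Finset V1) (B U : V1 → Finset V2) (hBU : ∀ a, B a ⊆ U a)
    (H1 : ∀ a K, B a ⊆ K → K ⊆ U a → γ (B a) ≤ γ K)
    (H2 : ∀ y, ∀ S : Finset V1, (∀ a, y ∈ B a → a ∈ S) → (∀ a ∈ S, y ∈ U a) →
      ((univ.filter fun a => y ∈ U a).card : ℤ)
        - (univ.filter fun c => ∀ a ∈ N c, y ∈ U a).card
      ≤ (S.card : ℤ) - (univ.filter fun c => ∀ a ∈ N c, a ∈ S).card) :
    ∑ a, (γ (U a) - γ (B a)) ≤
      ∑ c, (γ (univ.filter fun y => ∀ a ∈ N c, y ∈ U a)
        - γ (univ.filter fun y => ∀ a ∈ N c, y ∈ B a)) := by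
  classical
  set H : I → Finset V2 := fun c => univ.filter fun y => ∀ a ∈ N c, y ∈ U a with hH
  set X : I → Finset V2 := fun c => univ.filter fun y => ∀ a ∈ N c, y ∈ B a with hX
  have hXH : ∀ c, X c ⊆ H c := by
    intro c y hy
    simp only [hX, hH, mem_filter, mem_univ, true_and] at hy ⊢
    exact fun a ha => hBU a (hy a ha)
  have hHU : ∀ c, ∀ a ∈ N c, H c ⊆ U a := by
    intro c a ha y hy
    simp only [hH, mem_filter, mem_univ, true_and] at hy
    exact hy a ha
  have hXB : ∀ c, ∀ a ∈ N c, X c ⊆ B a := by
    intro c a ha y hy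
    simp only [hX, mem_filter, mem_univ, true_and] at hy
    exact hy a ha
  -- X c is minimal on [X c, H c]
  have hXmin : ∀ c K, X c ⊆ K → K ⊆ H c → γ (X c) ≤ γ K := by
    intro c K h1 h2
    have key : ∀ s : Finset V1, s ⊆ N c →
        γ (K ∩ univ.filter fun y => ∀ a ∈ s, y ∈ B a) ≤ γ K := by
      intro s
      induction s using Finset.induction_on with
      | empty => intro _; simp
      | insert a s has ih =>
        intro hs
        have ih' := ih ((subset_insert a s).trans hs)
        have haN : a ∈ N c := hs (mem_insert_self a s)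
        set K' := K ∩ univ.filter fun y => ∀ a ∈ s, y ∈ B a with hK'
        have e : (K ∩ univ.filter fun y => ∀ b ∈ insert a s, y ∈ B b) = K' ∩ B a := by
          ext y
          simp only [hK', mem_inter, mem_filter, mem_univ, true_and, mem_insert, forall_eq_or_imp]
          tauto
        rw [e]
        have h3 := hγ K' (B a)
        have h4 : γ (B a) ≤ γ (K' ∪ B a) := by
          apply H1 a _ subset_union_right
          apply union_subset _ (hBU a)
          exact (inter_subset_left.trans h2).trans (hHU c a haN)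
        linarith
    have h5 := key (N c) Subset.rfl
    have e : (K ∩ univ.filter fun y => ∀ a ∈ N c, y ∈ B a) = X c := by
      apply Subset.antisymm inter_subset_right
      exact subset_inter h1 Subset.rfl
    rwa [e] at h5
  -- induction over T
  have main : ∀ T : Finset V2,
      ∑ a, (mn γ (B a ∪ (T ∩ U a)) (U a) - γ (B a)) ≤
      ∑ c, (mn γ (X c ∪ (T ∩ H c)) (H c) - γ (X c)) := by
    intro T
    induction T using Finset.induction_on with
    | empty =>
      have h1 : ∑ a, (mn γ (B a ∪ (∅ ∩ U a)) (U a) - γ (B a)) ≤ 0 := by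
        apply Finset.sum_nonpos
        intro a _
        have := mn_le (γ := γ) (L := B a ∪ (∅ ∩ U a)) (R := U a) (K := B a) (by simp) (hBU a)
        linarith
      have h2 : 0 ≤ ∑ c, (mn γ (X c ∪ (∅ ∩ H c)) (H c) - γ (X c)) := by
        apply Finset.sum_nonneg
        intro c _
        have : γ (X c) ≤ mn γ (X c ∪ (∅ ∩ H c)) (H c) := by
          apply le_mn
          · simp [hXH c]
          · intro K h3 h4
            exact hXmin c K (subset_union_left.trans h3) h4
        linarith
      linarith
    | insert y T hy ih =>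
      set δ : V1 → ℤ := fun a => mn γ (B a ∪ (insert y T ∩ U a)) (U a)
        - mn γ (B a ∪ (T ∩ U a)) (U a) with hδ
      set ε : I → ℤ := fun c => mn γ (X c ∪ (insert y T ∩ H c)) (H c)
        - mn γ (X c ∪ (T ∩ H c)) (H c) with hε
      have hε0 : ∀ c, 0 ≤ ε c := by
        intro c
        have : mn γ (X c ∪ (T ∩ H c)) (H c) ≤ mn γ (X c ∪ (insert y T ∩ H c)) (H c) := by
          apply mn_mono
          · exact union_subset_union Subset.rfl
              (inter_subset_inter (subset_insert y T) Subset.rfl)
          · exact union_subset (hXH c) inter_subset_right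
        simp only [hε]; linarith
      have hδ0 : ∀ a, ¬ (y ∈ U a ∧ y ∉ B a) → δ a = 0 := by
        intro a ha
        have : B a ∪ (insert y T ∩ U a) = B a ∪ (T ∩ U a) := by
          ext z
          simp only [mem_union, mem_inter, mem_insert]
          constructor
          · rintro (h | ⟨rfl | h, h'⟩)
            · exact Or.inl h
            · left; by_contra hc; exact ha ⟨h', hc⟩
            · exact Or.inr ⟨h, h'⟩
          · rintro (h | ⟨h, h'⟩)
            · exact Or.inl h
            · exact Or.inr ⟨Or.inr h, h'⟩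
        simp only [hδ, this, sub_self]
      have hcomp : ∀ a c, a ∈ N c → y ∈ H c → δ a ≤ ε c := by
        intro a c hac hyH
        obtain ⟨K1, h11, h12, h13⟩ := mn_spec (γ := γ) (L := X c ∪ (insert y T ∩ H c)) (R := H c)
          (union_subset (hXH c) inter_subset_right)
        obtain ⟨K2, h21, h22, h23⟩ := mn_spec (γ := γ) (L := B a ∪ (T ∩ U a)) (R := U a)
          (union_subset (hBU a) inter_subset_right)
        have hy1 : y ∈ K1 := h11 (mem_union_right _ (mem_inter.2 ⟨mem_insert_self y T, hyH⟩))
        have hu : mn γ (B a ∪ (insert y T ∩ U a)) (U a) ≤ γ (K1 ∪ K2) := by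
          apply mn_le
          · intro z hz
            simp only [mem_union, mem_inter, mem_insert] at hz
            rcases hz with h | ⟨rfl | h, h'⟩
            · exact mem_union_right _ (h21 (mem_union_left _ h))
            · exact mem_union_left _ hy1
            · exact mem_union_right _ (h21 (mem_union_right _ (mem_inter.2 ⟨h, h'⟩)))
          · exact union_subset (h12.trans (hHU c a hac)) h22
        have hi : mn γ (X c ∪ (T ∩ H c)) (H c) ≤ γ (K1 ∩ K2) := by
          apply mn_le
          · intro z hz
            simp only [mem_union, mem_inter] at hz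
            rcases hz with h | ⟨h, h'⟩
            · exact mem_inter.2 ⟨h11 (mem_union_left _ h),
                h21 (mem_union_left _ (hXB c a hac h))⟩
            · exact mem_inter.2 ⟨h11 (mem_union_right _ (mem_inter.2 ⟨mem_insert_of_mem h, h'⟩)),
                h21 (mem_union_right _ (mem_inter.2 ⟨h, hHU c a hac h'⟩))⟩
          · exact inter_subset_left.trans h12
        have hs := hγ K1 K2
        simp only [hδ, hε]
        linarith
      -- Hall
      set Z : Finset V1 := univ.filter fun a => y ∈ U a ∧ y ∉ B a with hZ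
      have hHall : ∀ s : Finset {a // a ∈ Z}, s.card ≤
          (s.biUnion fun a => univ.filter fun c => y ∈ H c ∧ a.1 ∈ N c).card := by
        intro s
        set Z' : Finset V1 := s.map (Function.Embedding.subtype _) with hZ'
        have hZc : Z'.card = s.card := card_map _
        have hZ'Z : Z' ⊆ Z := by
          intro a ha
          simp only [hZ', mem_map, Function.Embedding.coe_subtype] at ha
          obtain ⟨b, _, rfl⟩ := ha
          exact b.2
        set Uy : Finset V1 := univ.filter fun a => y ∈ U a with hUy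
        have hZU : Z' ⊆ Uy := by
          intro a ha
          have := hZ'Z ha
          simp only [hZ, mem_filter, mem_univ, true_and] at this
          simp [hUy, this.1]
        have h2 := H2 y (Uy \ Z') (by
          intro a ha
          simp only [mem_sdiff, hUy, mem_filter, mem_univ, true_and]
          refine ⟨hBU a ha, fun hc => ?_⟩
          have := hZ'Z hc
          simp only [hZ, mem_filter, mem_univ, true_and] at this
          exact this.2 ha) (by
          intro a ha
          simp only [mem_sdiff, hUy, mem_filter, mem_univ, true_and] at ha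
          exact ha.1)
        have hc1 : ((Uy \ Z').card : ℤ) = Uy.card - Z'.card := by
          rw [card_sdiff_of_subset hZU, Nat.cast_sub (card_le_card hZU)]
        set C1 : Finset I := univ.filter fun c => ∀ a ∈ N c, y ∈ U a with hC1
        set C2 : Finset I := univ.filter fun c => ∀ a ∈ N c, a ∈ Uy \ Z' with hC2
        have hC21 : C2 ⊆ C1 := by
          intro c hc
          simp only [hC2, hC1, mem_filter, mem_univ, true_and, mem_sdiff, hUy] at hc ⊢
          exact fun a ha => (hc a ha).1
        have hsub : C1 \ C2 ⊆ s.biUnion fun a => univ.filter fun c => y ∈ H c ∧ a.1 ∈ N c := by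
          intro c hc
          simp only [mem_sdiff, hC1, hC2, mem_filter, mem_univ, true_and, hUy] at hc
          obtain ⟨hc1, hc2⟩ := hc
          push Not at hc2
          obtain ⟨a, haN, ha⟩ := hc2
          have haZ : a ∈ Z' := by
            by_contra hcon
            exact hcon (ha (hc1 a haN))
          simp only [hZ', mem_map, Function.Embedding.coe_subtype] at haZ
          obtain ⟨b, hb, rfl⟩ := haZ
          simp only [mem_biUnion, mem_filter, mem_univ, true_and]
          refine ⟨b, hb, ?_, haN⟩
          simp only [hH, mem_filter, mem_univ, true_and]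
          exact hc1
        have hcard := card_le_card hsub
        rw [card_sdiff_of_subset hC21] at hcard
        have hle := card_le_card hC21
        have : (Z'.card : ℤ) ≤ C1.card - C2.card := by linarith
        omega
      obtain ⟨f, hf, hf2⟩ := (Finset.all_card_le_biUnion_card_iff_exists_injective _).1 hHall
      have hstep : ∑ a, δ a ≤ ∑ c, ε c := by
        have e1 : ∑ a, δ a = ∑ a ∈ Z, δ a := by
          symm
          apply Finset.sum_subset (subset_univ _)
          intro a _ ha
          apply hδ0
          simpa [hZ] using ha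
        have e2 : ∑ a ∈ Z, δ a = ∑ a : {a // a ∈ Z}, δ a.1 := by
          rw [← Finset.sum_coe_sort]
        have e3 : ∑ a : {a // a ∈ Z}, δ a.1 ≤ ∑ a : {a // a ∈ Z}, ε (f a) := by
          apply Finset.sum_le_sum
          intro a _
          have := hf2 a
          simp only [mem_filter, mem_univ, true_and] at this
          exact hcomp a.1 (f a) this.2 this.1
        have e4 : ∑ a : {a // a ∈ Z}, ε (f a) = ∑ c ∈ univ.map ⟨f, hf⟩, ε c := by
          rw [Finset.sum_map]; rfl
        have e5 : ∑ c ∈ univ.map ⟨f, hf⟩, ε c ≤ ∑ c, ε c :=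
          Finset.sum_le_sum_of_subset_of_nonneg (subset_univ _) (fun c _ _ => hε0 c)
        linarith
      have f1 : ∑ a, (mn γ (B a ∪ (insert y T ∩ U a)) (U a) - γ (B a)) =
          ∑ a, (mn γ (B a ∪ (T ∩ U a)) (U a) - γ (B a)) + ∑ a, δ a := by
        rw [← Finset.sum_add_distrib]
        apply Finset.sum_congr rfl
        intro a _
        simp only [hδ]; ring
      have f2 : ∑ c, (mn γ (X c ∪ (insert y T ∩ H c)) (H c) - γ (X c)) =
          ∑ c, (mn γ (X c ∪ (T ∩ H c)) (H c) - γ (X c)) + ∑ c, ε c := by
        rw [← Finset.sum_add_distrib]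
        apply Finset.sum_congr rfl
        intro c _
        simp only [hε]; ring
      rw [f1, f2]
      linarith
  have hfin := main univ
  have g1 : ∀ a, mn γ (B a ∪ (univ ∩ U a)) (U a) = γ (U a) := by
    intro a
    have : B a ∪ (univ ∩ U a) = U a := by
      rw [univ_inter]; exact union_eq_right.2 (hBU a)
    rw [this, mn_self]
  have g2 : ∀ c, mn γ (X c ∪ (univ ∩ H c)) (H c) = γ (H c) := by
    intro c
    have : X c ∪ (univ ∩ H c) = H c := by
      rw [univ_inter]; exact union_eq_right.2 (hXH c)
    rw [this, mn_self]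
  simp only [g1, g2] at hfin
  exact hfin

end Vale.Agent.P038.H149
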